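import Vale.Agent.P237.Petty.Cor.Band20.N20g.Data
import Vale.Agent.P237.Petty.Cor.Band20.Good
import Vale.Agent.P237.Petty.Cor.Few.Mask

/-!
# P237: certificates, dimensions 20 to 21, values 37/2 to 21 over the dimension
-/

namespace Vale.Agent.P237.Petty.Cor.Band20.N20g

theorem checks3 : Checks data piece3 := by
  constructor
  ·
    exact ⟨
      .leaf,
      Few.certify_of_quick (by decide +kernel)⟩
  ·
    exact ⟨
      .leaf,
      Few.certify_of_quick (by decide +kernel)⟩
  ·
    exact ⟨
      .leaf,
      Few.certify_of_quick (by decide +kernel)⟩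
  ·
    exact ⟨
      .leaf,
      Few.certify_of_quick (by decide +kernel)⟩
  ·
    exact ⟨
      (.split 0 .leaf .leaf),
      Few.certify_of_quick (by decide +kernel)⟩
  ·
    exact ⟨
      .leaf,
      Few.certify_of_quick (by decide +kernel)⟩
  · intro i
    cases i
    ·
      exact ⟨
        (.split 2 (.split 2 .leaf (.split 2 (.split 2 .leaf (.split 2 (.split 2 .leaf (.split 2
        .leaf (.split 0 (.split 2 .leaf (.split 0 .leaf (.split 2 .leaf .leaf))) (.split 2 .leaf
        (.split 0 (.split 2 .leaf .leaf) (.split 0 (.split 2 .leaf .leaf) .leaf)))))) (.split 2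
        (.split 2 (.split 0 (.split 2 (.split 0 (.split 0 (.split 2 .leaf (.split 0 (.split 2
        .leaf .leaf) .leaf)) (.split 2 .leaf .leaf)) (.split 0 (.split 2 .leaf .leaf) (.split 2
        .leaf .leaf))) .leaf) .leaf) .leaf) .leaf))) .leaf)) .leaf),
        Few.certify_of_quick (by decide +kernel)⟩
    ·
      exact ⟨
        (.split 2 (.split 2 .leaf (.split 2 (.split 2 .leaf (.split 2 (.split 2 .leaf (.split 2
        .leaf (.split 0 .leaf (.split 2 .leaf .leaf)))) (.split 2 (.split 2 .leaf .leaf) .leaf)))
        .leaf)) .leaf),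
        Few.certify_of_quick (by decide +kernel)⟩
  · intro i
    cases i
    ·
      exact ⟨
        .leaf,
        Few.certify_of_quick (by decide +kernel)⟩
    ·
      exact ⟨
        .leaf,
        Few.certify_of_quick (by decide +kernel)⟩
  · intro h
    simp [piece3] at h
  ·
    exact ⟨
      .leaf,
      Few.certify_of_quick (by decide +kernel)⟩
  ·
    exact ⟨
      .leaf,
      Few.certify_of_quick (by decide +kernel)⟩

theorem checks4 : Checks data piece4 := by
  constructor
  ·
    exact ⟨
      .leaf,
      Few.certify_of_quick (by decide +kernel)⟩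
  ·
    exact ⟨
      .leaf,
      Few.certify_of_quick (by decide +kernel)⟩
  ·
    exact ⟨
      .leaf,
      Few.certify_of_quick (by decide +kernel)⟩
  ·
    exact ⟨
      .leaf,
      Few.certify_of_quick (by decide +kernel)⟩
  ·
    exact ⟨
      (.split 0 .leaf .leaf),
      Few.certify_of_quick (by decide +kernel)⟩
  ·
    exact ⟨
      .leaf,
      Few.certify_of_quick (by decide +kernel)⟩
  · intro i
    cases i
    ·
      exact ⟨
        (.split 2 (.split 2 .leaf (.split 2 (.split 2 .leaf (.split 2 (.split 2 (.split 0 .leaf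
        (.split 2 .leaf .leaf)) (.split 0 (.split 2 (.split 0 .leaf (.split 2 .leaf .leaf))
        (.split 0 (.split 2 (.split 0 .leaf .leaf) .leaf) (.split 2 .leaf .leaf))) (.split 2
        (.split 0 (.split 2 .leaf .leaf) (.split 2 .leaf .leaf)) .leaf))) .leaf)) .leaf)) .leaf),
        Few.certify_of_quick (by decide +kernel)⟩
    ·
      exact ⟨
        (.split 2 (.split 2 .leaf (.split 2 (.split 2 .leaf (.split 2 (.split 2 (.split 0 .leaf
        (.split 2 .leaf .leaf)) (.split 0 (.split 2 (.split 0 .leaf (.split 2 .leaf .leaf))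
        (.split 0 (.split 2 .leaf .leaf) .leaf)) (.split 2 (.split 0 (.split 2 .leaf .leaf)
        .leaf) .leaf))) .leaf)) .leaf)) .leaf),
        Few.certify_of_quick (by decide +kernel)⟩
  · intro i
    cases i
    ·
      exact ⟨
        .leaf,
        Few.certify_of_quick (by decide +kernel)⟩
    ·
      exact ⟨
        .leaf,
        Few.certify_of_quick (by decide +kernel)⟩
  · intro h
    simp [piece4] at h
  ·
    exact ⟨
      .leaf,
      Few.certify_of_quick (by decide +kernel)⟩
  ·
    exact ⟨
      .leaf,
      Few.certify_of_quick (by decide +kernel)⟩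

theorem checks5 : Checks data piece5 := by
  constructor
  ·
    exact ⟨
      .leaf,
      Few.certify_of_quick (by decide +kernel)⟩
  ·
    exact ⟨
      .leaf,
      Few.certify_of_quick (by decide +kernel)⟩
  ·
    exact ⟨
      .leaf,
      Few.certify_of_quick (by decide +kernel)⟩
  ·
    exact ⟨
      .leaf,
      Few.certify_of_quick (by decide +kernel)⟩
  ·
    exact ⟨
      (.split 1 .leaf (.split 1 .leaf (.split 1 .leaf (.split 1 .leaf (.split 0 .leaf .leaf))))),
      Few.certify_of_quick (by decide +kernel)⟩
  ·
    exact ⟨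
      .leaf,
      Few.certify_of_quick (by decide +kernel)⟩
  · intro i
    cases i
    ·
      exact ⟨
        (.split 2 (.split 2 .leaf (.split 2 (.split 2 .leaf (.split 2 (.split 2 (.split 0 (.split
        2 .leaf (.split 0 .leaf .leaf)) (.split 2 .leaf .leaf)) .leaf) .leaf)) .leaf)) .leaf),
        Few.certify_of_quick (by decide +kernel)⟩
    ·
      exact ⟨
        (.split 2 (.split 2 .leaf (.split 2 (.split 2 .leaf (.split 2 (.split 2 (.split 0 (.split
        2 .leaf (.split 0 .leaf .leaf)) (.split 2 .leaf .leaf)) .leaf) .leaf)) .leaf)) .leaf),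
        Few.certify_of_quick (by decide +kernel)⟩
  · intro i
    cases i
    ·
      exact ⟨
        .leaf,
        Few.certify_of_quick (by decide +kernel)⟩
    ·
      exact ⟨
        .leaf,
        Few.certify_of_quick (by decide +kernel)⟩
  · intro h
    simp [piece5] at h
  ·
    exact ⟨
      .leaf,
      Few.certify_of_quick (by decide +kernel)⟩
  ·
    exact ⟨
      .leaf,
      Few.certify_of_quick (by decide +kernel)⟩

end Vale.Agent.P237.Petty.Cor.Band20.N20g
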